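import Vale.Agent.P031.Tools
import Vale.Agent.P031.Statements

/-! Weighted sums over prime powers, used for the crude totient bounds. -/

open Finset

noncomputable section

namespace P031.TotalAux

/-- The totient of a prime power. -/
def tw (p e : ℕ) : ℕ := p ^ (e - 1) * (p - 1)

theorem totient_eq {n : ℕ} (hn : n ≠ 0) :
    Nat.totient n = ∏ p ∈ n.primeFactors, tw p (n.factorization p) := by
  rw [Nat.totient_eq_prod_factorization hn, Finsupp.prod, Nat.support_factorization]
  rfl

theorem inv_totient_eq {n : ℕ} (hn : n ≠ 0) :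
    ((Nat.totient n : ℝ))⁻¹ = ∏ p ∈ n.primeFactors, ((tw p (n.factorization p) : ℝ))⁻¹ := by
  rw [totient_eq hn, Nat.cast_prod, Finset.prod_inv_distrib]

theorem one_le_factorization {n p : ℕ} (hp : p ∈ n.primeFactors) : 1 ≤ n.factorization p :=
  (Nat.prime_of_mem_primeFactors hp).factorization_pos_of_dvd
    (Nat.mem_primeFactors.1 hp).2.2 (Nat.dvd_of_mem_primeFactors hp)

/-- The part of `n` made of the primes satisfying `P`. -/
def part (n : ℕ) (P : ℕ → Prop) [DecidablePred P] : ℕ :=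
  (n.factorization.filter P).prod fun p e => p ^ e

section part

variable (n : ℕ) (P : ℕ → Prop) [DecidablePred P]

theorem support_prime : ∀ p ∈ (n.factorization.filter P).support, p.Prime := fun p hp => by
  rw [Finsupp.support_filter, Nat.support_factorization] at hp
  exact Nat.prime_of_mem_primeFactors (Finset.mem_filter.1 hp).1

theorem part_ne_zero : part n P ≠ 0 :=
  Finset.prod_ne_zero_iff.2 fun p hp => pow_ne_zero _ (support_prime n P p hp).ne_zero

theorem factorization_part : (part n P).factorization = n.factorization.filter P :=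
  Nat.prod_pow_factorization_eq_self (support_prime n P)

theorem primeFactors_part : (part n P).primeFactors = n.primeFactors.filter P := by
  rw [← Nat.support_factorization, factorization_part, Finsupp.support_filter,
    Nat.support_factorization]

theorem totient_part :
    Nat.totient (part n P) = ∏ p ∈ n.primeFactors.filter P, tw p (n.factorization p) := by
  rw [totient_eq (part_ne_zero n P), primeFactors_part, factorization_part]
  exact Finset.prod_congr rfl fun p hp => by
    rw [Finsupp.filter_apply, if_pos (Finset.mem_filter.1 hp).2]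

variable {n}

theorem totient_part_mul (hn : n ≠ 0) :
    Nat.totient (part n P) * Nat.totient (part n fun p => ¬ P p) = Nat.totient n := by
  rw [totient_part, totient_part, totient_eq hn, Finset.prod_filter_mul_prod_filter_not]

theorem cellsLe_part {T : ℕ} (h : CellsLe n T) : CellsLe (part n P) T := fun p hp => by
  rw [primeFactors_part] at hp
  exact h p (Finset.mem_filter.1 hp).1

end part

theorem lowPart_eq_part (n S : ℕ) : lowPart n S = part n fun p => cell p < S := by
  unfold lowPart part Finsupp.prod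
  rw [Finsupp.support_filter, Nat.support_factorization]
  exact Finset.prod_congr rfl fun p hp => by
    rw [Finsupp.filter_apply, if_pos (Finset.mem_filter.1 hp).2]

/-! ### Sums over finite sets -/

theorem invSum_image_le (N : Finset ℕ) (f : ℕ → ℕ) :
    invSum (N.image f) ≤ ∑ n ∈ N, ((f n : ℝ))⁻¹ :=
  Finset.sum_image_le_of_nonneg fun _ _ => inv_nonneg.2 (Nat.cast_nonneg _)

theorem invSum_biUnion_le {ι : Type*} [DecidableEq ι] (I : Finset ι) (f : ι → Finset ℕ) :
    invSum (I.biUnion f) ≤ ∑ i ∈ I, invSum (f i) := by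
  classical
  induction I using Finset.induction_on with
  | empty => simp [invSum]
  | @insert i I hi ih =>
    rw [Finset.biUnion_insert, Finset.sum_insert hi]
    exact (invSum_union_le _ _).trans (add_le_add le_rfl ih)

theorem exists_finset {P : ℕ → Prop} {F : Finset ℕ} (h : ValuesOf P F) :
    ∃ N : Finset ℕ, (∀ n ∈ N, P n) ∧ F ⊆ N.image Nat.totient := by
  classical
  choose f hf using h
  refine ⟨F.attach.image fun v => f v.1 v.2, fun n hn => ?_, fun v hv => ?_⟩
  · obtain ⟨v, -, rfl⟩ := Finset.mem_image.1 hn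
    exact (hf _ _).1
  · exact Finset.mem_image.2
      ⟨f v hv, Finset.mem_image.2 ⟨⟨v, hv⟩, Finset.mem_attach _ _, rfl⟩, (hf v hv).2⟩

/-- Euler product bound for a nonnegative multiplicative weight. -/
theorem euler_gen (P : Finset ℕ) (w : ℕ → ℕ → ℝ) (B : ℕ → ℝ)
    (hw : ∀ p ∈ P, ∀ e, 0 ≤ w p e) (hB : ∀ p ∈ P, ∀ E, ∑ e ∈ Finset.Icc 1 E, w p e ≤ B p)
    (N : Finset ℕ) (hN : ∀ n ∈ N, n ≠ 0 ∧ n.primeFactors ⊆ P) :
    ∑ n ∈ N, ∏ p ∈ n.primeFactors, w p (n.factorization p) ≤ Real.exp (∑ p ∈ P, B p) := by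
  classical
  set g : ℕ → ℕ → ℝ := fun p e => if e = 0 then 1 else w p e with hg
  have hg0 : ∀ p ∈ P, ∀ e, 0 ≤ g p e := fun p hp e => by
    simp only [hg]; split_ifs; exacts [zero_le_one, hw p hp e]
  set E := P.sup fun p => N.sup fun n => n.factorization p with hE
  have hle : ∀ n ∈ N, ∀ p ∈ P, n.factorization p < E + 1 := fun n hn p hp => by
    have h1 : n.factorization p ≤ N.sup fun m => m.factorization p :=
      Finset.le_sup (f := fun m => m.factorization p) hn
    have h2 : (N.sup fun m => m.factorization p) ≤ E :=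
      Finset.le_sup (f := fun p => N.sup fun m => m.factorization p) hp
    omega
  have inj : Set.InjOn (fun n : ℕ => fun p (_ : p ∈ P) => n.factorization p) N := by
    intro m hm n hn h
    apply Nat.eq_of_factorization_eq (hN m hm).1 (hN n hn).1
    intro p
    by_cases hp : p ∈ P
    · exact congrFun (congrFun h p) hp
    · have h1 : p ∉ m.primeFactors := fun h' => hp ((hN m hm).2 h')
      have h2 : p ∉ n.primeFactors := fun h' => hp ((hN n hn).2 h')
      rw [← Nat.support_factorization, Finsupp.notMem_support_iff] at h1 h2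
      rw [h1, h2]
  calc ∑ n ∈ N, ∏ p ∈ n.primeFactors, w p (n.factorization p)
      = ∑ n ∈ N, ∏ p ∈ P.attach, g p (n.factorization p) := by
        refine Finset.sum_congr rfl fun n hn => ?_
        rw [Finset.prod_attach P fun p => g p (n.factorization p)]
        refine Finset.prod_congr_of_eq_on_inter ?_ ?_ ?_
        · intro p hp hpP
          exact absurd ((hN n hn).2 hp) hpP
        · intro p _ hp
          simp only [hg]
          rw [if_pos (Finsupp.notMem_support_iff.1 (by rwa [Nat.support_factorization]))]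
        · intro p hp _
          simp only [hg]
          rw [if_neg (by have := one_le_factorization hp; omega)]
    _ = ∑ k ∈ N.image (fun n : ℕ => fun p (_ : p ∈ P) => n.factorization p),
          ∏ p ∈ P.attach, g p (k p.1 p.2) := by
        rw [Finset.sum_image inj]
    _ ≤ ∑ k ∈ P.pi (fun _ => Finset.range (E + 1)), ∏ p ∈ P.attach, g p (k p.1 p.2) := by
        refine Finset.sum_le_sum_of_subset_of_nonneg ?_ ?_
        · intro k hk
          obtain ⟨n, hn, rfl⟩ := Finset.mem_image.1 hk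
          rw [Finset.mem_pi]
          exact fun p hp => Finset.mem_range.2 (hle n hn p hp)
        · exact fun k _ _ => Finset.prod_nonneg fun p _ => hg0 p.1 p.2 _
    _ = ∏ p ∈ P, ∑ e ∈ Finset.range (E + 1), g p e :=
        (Finset.prod_sum P (fun _ => Finset.range (E + 1)) fun p e => g p e).symm
    _ ≤ ∏ p ∈ P, Real.exp (B p) := by
        refine Finset.prod_le_prod (fun p hp => Finset.sum_nonneg fun e _ => hg0 p hp e)
          fun p hp => ?_
        have hsplit : Finset.range (E + 1) = insert 0 (Finset.Icc 1 E) := by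
          ext e; simp only [Finset.mem_range, Finset.mem_insert, Finset.mem_Icc]; omega
        rw [hsplit, Finset.sum_insert (by simp)]
        have h2 : ∑ e ∈ Finset.Icc 1 E, g p e = ∑ e ∈ Finset.Icc 1 E, w p e :=
          Finset.sum_congr rfl fun e he => by
            simp only [hg]; rw [if_neg (by have := (Finset.mem_Icc.1 he).1; omega)]
        rw [h2, show g p 0 = 1 from if_pos rfl]
        linarith [hB p hp E, Real.add_one_le_exp (B p)]
    _ = Real.exp (∑ p ∈ P, B p) := (Real.exp_sum _ _).symm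

/-! ### Prime powers -/

theorem inv_tw_le {p e : ℕ} (hp : 2 ≤ p) (he : 1 ≤ e) :
    ((tw p e : ℝ))⁻¹ ≤ 2 * ((p : ℝ)⁻¹) ^ e := by
  obtain ⟨k, rfl⟩ : ∃ k, e = k + 1 := ⟨e - 1, by omega⟩
  have hp' : (2 : ℝ) ≤ p := by exact_mod_cast hp
  have hpos : (0 : ℝ) < (p : ℝ) ^ (k + 1) := by positivity
  have htw : (tw p (k + 1) : ℝ) = (p : ℝ) ^ k * ((p : ℝ) - 1) := by
    simp [tw, Nat.cast_sub (by omega : 1 ≤ p)]
  have hlow : (p : ℝ) ^ (k + 1) / 2 ≤ (tw p (k + 1) : ℝ) := by
    rw [htw, pow_succ, mul_div_assoc]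
    exact mul_le_mul_of_nonneg_left (by linarith) (by positivity)
  calc ((tw p (k + 1) : ℝ))⁻¹ ≤ ((p : ℝ) ^ (k + 1) / 2)⁻¹ := inv_anti₀ (by positivity) hlow
    _ = _ := by rw [inv_div, inv_pow, div_eq_mul_inv]

theorem sum_pow_le {r : ℝ} (h0 : 0 ≤ r) (h1 : r < 1) (E : ℕ) :
    ∑ e ∈ Finset.Icc 1 E, r ^ e ≤ r / (1 - r) := by
  rw [le_div_iff₀ (by linarith)]
  induction E with
  | zero => simpa using h0
  | succ E ih =>
    have hsum : ∀ E : ℕ, (∑ e ∈ Finset.Icc 1 E, r ^ e) * (1 - r) = r - r ^ (E + 1) := by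
      intro E
      induction E with
      | zero => simp
      | succ E ih =>
        rw [Finset.sum_Icc_succ_top (by omega : 1 ≤ E + 1), add_mul, ih]
        ring
    rw [hsum]
    linarith [pow_nonneg h0 (E + 1 + 1)]

/-- The weight of the powers of one prime, the first power of a normal prime discounted by `x`. -/
theorem prime_weight_le {p : ℕ} (hp : 2 ≤ p) {x : ℝ} (hx : 0 ≤ x) (E : ℕ) [Decidable (Normal p)] :
    ∑ e ∈ Finset.Icc 1 E, (if Normal p ∧ e = 1 then x else 1) * ((tw p e : ℝ))⁻¹ ≤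
      if Normal p then 2 * x / p + 4 / (p : ℝ) ^ 2 else 4 / (p : ℝ) := by
  have hp' : (2 : ℝ) ≤ p := by exact_mod_cast hp
  set r : ℝ := (p : ℝ)⁻¹ with hr
  have hr0 : 0 ≤ r := by positivity
  have hr2 : r ≤ 1 / 2 := by
    rw [hr, ← one_div]; exact one_div_le_one_div_of_le (by norm_num) hp'
  have hgeo : ∑ e ∈ Finset.Icc 1 E, r ^ e ≤ 2 * r := by
    refine (sum_pow_le hr0 (by linarith) E).trans ?_
    rw [div_le_iff₀ (by linarith)]
    nlinarith
  have hterm : ∀ e ∈ Finset.Icc 1 E, ((tw p e : ℝ))⁻¹ ≤ 2 * r ^ e :=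
    fun e he => inv_tw_le hp (Finset.mem_Icc.1 he).1
  by_cases hN : Normal p
  · rw [if_pos hN]
    simp only [hN, true_and]
    calc ∑ e ∈ Finset.Icc 1 E, (if e = 1 then x else 1) * ((tw p e : ℝ))⁻¹
        ≤ ∑ e ∈ Finset.Icc 1 E, ((if e = 1 then 2 * x * r else 0) +
            (if e = 1 then 0 else 2 * r ^ e)) := by
          refine Finset.sum_le_sum fun e he => ?_
          rcases eq_or_ne e 1 with rfl | he1
          · rw [if_pos rfl, if_pos rfl, if_pos rfl, add_zero, mul_comm 2 x, mul_assoc]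
            exact mul_le_mul_of_nonneg_left (by simpa using hterm 1 he) hx
          · rw [if_neg he1, if_neg he1, if_neg he1, one_mul, zero_add]
            exact hterm e he
      _ ≤ 2 * x / p + 4 / (p : ℝ) ^ 2 := by
          rw [Finset.sum_add_distrib]
          refine add_le_add ?_ ?_
          · rw [Finset.sum_ite_eq']
            split_ifs
            · rw [hr, ← div_eq_mul_inv]
            · positivity
          · rcases Nat.eq_zero_or_pos E with rfl | hE
            · simp only [Finset.Icc_eq_empty_of_lt zero_lt_one, Finset.sum_empty]; positivity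
            have h1 : (1 : ℕ) ∈ Finset.Icc 1 E := Finset.mem_Icc.2 ⟨le_rfl, hE⟩
            rw [← Finset.add_sum_erase _ _ h1, if_pos rfl, zero_add,
              Finset.sum_congr rfl fun e he => if_neg (Finset.ne_of_mem_erase he),
              ← Finset.mul_sum]
            have h2 := Finset.add_sum_erase _ (fun e => r ^ e) h1
            rw [pow_one] at h2
            have h3 := sum_pow_le hr0 (by linarith) E
            have h4 : r / (1 - r) - r ≤ 2 * r ^ 2 := by
              rw [sub_le_iff_le_add, div_le_iff₀ (by linarith)]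
              nlinarith
            have h5 : 4 / (p : ℝ) ^ 2 = 4 * r ^ 2 := by rw [hr, inv_pow, div_eq_mul_inv]
            linarith
  · rw [if_neg hN]
    simp only [hN, false_and, if_false, one_mul]
    calc ∑ e ∈ Finset.Icc 1 E, ((tw p e : ℝ))⁻¹ ≤ ∑ e ∈ Finset.Icc 1 E, 2 * r ^ e :=
          Finset.sum_le_sum hterm
      _ ≤ 4 / (p : ℝ) := by rw [← Finset.mul_sum, div_eq_mul_inv, ← hr]; linarith

/-- The primes of scale below `W`. -/
def below (W : ℕ) : Finset ℕ := (Finset.range W).biUnion cellPrimes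

theorem mem_below {p W : ℕ} : p ∈ below W ↔ p.Prime ∧ cell p < W := by
  simp [below, mem_cellPrimes, and_comm]

theorem sum_below (W : ℕ) (f : ℕ → ℝ) :
    ∑ p ∈ below W, f p = ∑ t ∈ Finset.range W, ∑ p ∈ cellPrimes t, f p :=
  Finset.sum_biUnion fun _ _ _ _ h => cellPrimes_disjoint h

theorem primeFactors_subset_below {n T : ℕ} (h : CellsLe n T) : n.primeFactors ⊆ below (T + 1) :=
  fun p hp => mem_below.2 ⟨Nat.prime_of_mem_primeFactors hp, Nat.lt_succ_iff.2 (h p hp)⟩

/-- The constants: a bound for one cell, and a scale past which abnormal primes are rare. -/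
structure Setup (C0 : ℝ) (j1 : ℕ) : Prop where
  pos : 1 ≤ C0
  one_le : 1 ≤ j1
  cell_le : ∀ t, ∑ p ∈ cellPrimes t, (p : ℝ)⁻¹ ≤ C0
  abnormal : ∀ t, 2 ^ j1 ≤ t → ∀ F : Finset ℕ, (∀ p ∈ F, p ∈ cellPrimes t ∧ ¬ Normal p) →
    ∑ p ∈ F, (p : ℝ)⁻¹ ≤ Real.exp (-(t : ℝ) ^ ((1 : ℝ) / 3))
  dev_le : ∀ t : ℕ, 2 ^ j1 ≤ t → dev t ≤ (t : ℝ) / 2
  exp_le : ∀ t : ℕ, 2 ^ j1 ≤ t → Real.exp (-(t : ℝ) ^ ((1 : ℝ) / 3)) ≤ 1 / t

theorem exists_setup (hC : CellStatement) (hA : AbnormalStatement) :
    ∃ C0 j1, Setup C0 j1 := by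
  classical
  obtain ⟨t1, ht1⟩ := hC
  obtain ⟨t2, ht2, -⟩ := hA
  refine ⟨2 + ∑ t ∈ Finset.range t1, ∑ p ∈ cellPrimes t, (p : ℝ)⁻¹, t2 + 46656, ?_, by omega,
    fun t => ?_, fun t ht F hF => ?_, fun t ht => ?_, fun t ht => ?_⟩
  · have : 0 ≤ ∑ t ∈ Finset.range t1, ∑ p ∈ cellPrimes t, (p : ℝ)⁻¹ :=
      Finset.sum_nonneg fun t _ => Finset.sum_nonneg fun p _ => by positivity
    linarith
  · have h0 : 0 ≤ ∑ t ∈ Finset.range t1, ∑ p ∈ cellPrimes t, (p : ℝ)⁻¹ :=
      Finset.sum_nonneg fun t _ => Finset.sum_nonneg fun p _ => by positivity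
    rcases lt_or_ge t t1 with h | h
    · have h1 : ∑ p ∈ cellPrimes t, (p : ℝ)⁻¹ ≤
          ∑ s ∈ Finset.range t1, ∑ p ∈ cellPrimes s, (p : ℝ)⁻¹ :=
        Finset.single_le_sum (f := fun s => ∑ p ∈ cellPrimes s, (p : ℝ)⁻¹)
          (fun s _ => Finset.sum_nonneg fun p _ => by positivity)
          (Finset.mem_range.2 h)
      linarith
    · have h1 := (abs_le.1 (ht1 t h)).2
      have h2 : Real.exp (-(t : ℝ) / 2) ≤ 1 := Real.exp_le_one_iff.2 (by
        have : (0 : ℝ) ≤ t := Nat.cast_nonneg t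
        linarith)
      linarith
  · exact ht2 t (by have := @Nat.lt_two_pow_self (t2 + 46656); omega) F hF
  · have h256 : 256 ≤ t := by have := @Nat.lt_two_pow_self (t2 + 46656); omega
    have h256' : (256 : ℝ) ≤ t := by exact_mod_cast h256
    unfold dev
    set x : ℝ := (t : ℝ) ^ ((1 : ℝ) / 4) with hx
    have hx4 : (4 : ℝ) ≤ x := by
      calc (4 : ℝ) = ((4 : ℝ) ^ 4) ^ ((1 : ℝ) / 4) := by
            rw [← Real.rpow_natCast, ← Real.rpow_mul (by norm_num)]; norm_num
        _ ≤ x := Real.rpow_le_rpow (by norm_num) (by norm_num; linarith) (by norm_num)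
    have h1 : ((t : ℝ) + 4) ^ ((3 : ℝ) / 4) ≤ (2 * (t : ℝ)) ^ ((3 : ℝ) / 4) :=
      Real.rpow_le_rpow (by positivity) (by linarith) (by norm_num)
    have h2 : (2 * (t : ℝ)) ^ ((3 : ℝ) / 4) ≤ 2 * (t : ℝ) ^ ((3 : ℝ) / 4) := by
      rw [Real.mul_rpow (by norm_num) (by positivity)]
      refine mul_le_mul_of_nonneg_right ?_ (by positivity)
      exact (Real.rpow_le_rpow_of_exponent_le (by norm_num) (by norm_num :
        (3 : ℝ) / 4 ≤ 1)).trans (Real.rpow_one 2).le
    have h3 : (t : ℝ) ^ ((3 : ℝ) / 4) * x = t := by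
      rw [hx, ← Real.rpow_add (by linarith)]; norm_num
    have h4 : 0 ≤ (t : ℝ) ^ ((3 : ℝ) / 4) := by positivity
    nlinarith
  · have hbig : 46656 ≤ t := by have := @Nat.lt_two_pow_self (t2 + 46656); omega
    have hbig' : (46656 : ℝ) ≤ t := by exact_mod_cast hbig
    have ht0 : (0 : ℝ) < t := by linarith
    set x : ℝ := (t : ℝ) ^ ((1 : ℝ) / 6) with hx
    have hx6 : (6 : ℝ) ≤ x := by
      calc (6 : ℝ) = ((6 : ℝ) ^ 6) ^ ((1 : ℝ) / 6) := by
            rw [← Real.rpow_natCast, ← Real.rpow_mul (by norm_num)]; norm_num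
        _ ≤ x := Real.rpow_le_rpow (by norm_num) (by norm_num; linarith) (by norm_num)
    have h1 := Real.log_le_rpow_div (x := (t : ℝ)) ht0.le (by norm_num : (0 : ℝ) < 1 / 6)
    have h2 : (t : ℝ) ^ ((1 : ℝ) / 3) = x * x := by
      rw [hx, ← Real.rpow_add ht0]; norm_num
    rw [one_div (t : ℝ), ← Real.exp_log (inv_pos.2 ht0), Real.log_inv, h2]
    refine Real.exp_le_exp.2 (neg_le_neg ?_)
    nlinarith

/-- One cell: normal first powers discounted by `x`. -/
theorem cell_weight_le {C0 : ℝ} {j1 : ℕ} (hS : Setup C0 j1) {t : ℕ} (ht : 2 ^ j1 ≤ t) {x : ℝ}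
    (hx : 0 ≤ x) [DecidablePred Normal] :
    ∑ p ∈ cellPrimes t, (if Normal p then 2 * x / p + 4 / (p : ℝ) ^ 2 else 4 / (p : ℝ)) ≤
      2 * x * C0 + 4 * C0 * Real.exp (-(t : ℝ)) + 4 * Real.exp (-(t : ℝ) ^ ((1 : ℝ) / 3)) := by
  have ht1 : 1 ≤ t := le_trans Nat.one_le_two_pow ht
  calc ∑ p ∈ cellPrimes t, (if Normal p then 2 * x / p + 4 / (p : ℝ) ^ 2 else 4 / (p : ℝ))
      ≤ ∑ p ∈ cellPrimes t, ((2 * x + 4 * Real.exp (-(t : ℝ))) * (p : ℝ)⁻¹ +
          if Normal p then 0 else 4 * (p : ℝ)⁻¹) := by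
        refine Finset.sum_le_sum fun p hp => ?_
        obtain ⟨hpp, hct⟩ := mem_cellPrimes.1 hp
        have hp0 : (0 : ℝ) < (p : ℝ)⁻¹ := inv_pos.2 (by exact_mod_cast hpp.pos)
        split_ifs
        · have hge : Real.exp (t : ℝ) ≤ p := by
            refine le_trans (Real.exp_le_exp.2 ?_) (le_of_le_cell hpp.two_le ht1 hct.ge)
            linarith [Real.add_one_le_exp (t : ℝ)]
          have hinv : (p : ℝ)⁻¹ ≤ Real.exp (-(t : ℝ)) := by
            rw [Real.exp_neg]; exact inv_anti₀ (Real.exp_pos _) hge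
          rw [div_eq_mul_inv, div_eq_mul_inv, ← inv_pow]
          nlinarith
        · rw [div_eq_mul_inv]
          nlinarith [Real.exp_pos (-(t : ℝ))]
    _ = (2 * x + 4 * Real.exp (-(t : ℝ))) * ∑ p ∈ cellPrimes t, (p : ℝ)⁻¹ +
          4 * ∑ p ∈ (cellPrimes t).filter (fun p => ¬ Normal p), (p : ℝ)⁻¹ := by
        rw [Finset.sum_add_distrib, ← Finset.mul_sum, Finset.mul_sum (a := (4 : ℝ)),
          Finset.sum_filter]
        simp only [ite_not]
    _ ≤ _ := by
        have h1 := hS.abnormal t ht ((cellPrimes t).filter fun p => ¬ Normal p)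
          fun p hp => Finset.mem_filter.1 hp
        have h2 := mul_le_mul_of_nonneg_left (hS.cell_le t)
          (show 0 ≤ 2 * x + 4 * Real.exp (-(t : ℝ)) by positivity)
        linarith

end P031.TotalAux
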